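import Vale.Agent.Results.P042.SquaresLower
import Vale.Agent.Results.P042.UpperSqrtLogDeg

/-!
Two-sided progress on the order of growth of `r_h(N)`, stated without auxiliary definitions, for
sets of integers and Mathlib's pointwise difference `A - A`:
`r_{x^2}(N) ≫ N^0.756`, and `r_h(N) ≪ N exp(-c √(log N))` for every intersective polynomial `h`,
with `c` depending only on the degree.
-/

open Polynomial Pointwise

namespace Vale.Agent.Results.P042.GrowthBounds

/-- (1) For every `N` some `A ⊆ {1, …, N}` with at least `c N^0.756` elements has no difference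
which is a nonzero square.  (2) For every `k ≥ 2` there is `c > 0` such that for every intersective
`h` of degree `k` with positive leading coefficient every `A ⊆ {1, …, N}` no difference of which is
a nonzero value `h(n)`, `n ≥ 1`, has at most `C N exp(-c √(log N))` elements. -/
theorem result :
    (∃ c : ℝ, 0 < c ∧ ∀ N : ℕ, ∃ A : Set ℤ, A ⊆ Set.Icc 1 (N : ℤ) ∧
      (A - A) ∩ {m : ℤ | ∃ n : ℕ, 1 ≤ n ∧ m = (n : ℤ) ^ 2} ⊆ {0} ∧
      c * (N : ℝ) ^ (0.756 : ℝ) ≤ (A.ncard : ℝ)) ∧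
    ∀ k : ℕ, 2 ≤ k → ∃ c : ℝ, 0 < c ∧ ∀ h : ℤ[X], h.natDegree = k → 0 < h.leadingCoeff →
      (∀ q : ℕ, 1 ≤ q → ∃ t : ℤ, h.eval t ≡ 0 [ZMOD (q : ℤ)]) →
      ∃ C : ℝ, ∀ N : ℕ, 1 ≤ N → ∀ A : Set ℤ, A ⊆ Set.Icc 1 (N : ℤ) →
        (A - A) ∩ {m : ℤ | ∃ n : ℕ, 1 ≤ n ∧ m = h.eval (n : ℤ)} ⊆ {0} →
        (A.ncard : ℝ) ≤ C * N * Real.exp (-c * Real.sqrt (Real.log N)) := by
  refine ⟨?_, ?_⟩
  · obtain ⟨c, hc, hmain⟩ := SquaresLower.result
    refine ⟨c, hc, fun N => ?_⟩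
    obtain ⟨B, hB, hav, hcard⟩ := SquaresLower.exists_card_eq_r (X ^ 2) N
    refine ⟨(fun b : ℕ => (b : ℤ)) '' (B : Set ℕ), ?_, ?_, ?_⟩
    · rintro _ ⟨b, hb, rfl⟩
      have hb' := Finset.mem_Icc.1 (hB hb)
      have h1 : (1 : ℤ) ≤ (b : ℤ) := by exact_mod_cast hb'.1
      have h2 : (b : ℤ) ≤ (N : ℤ) := by exact_mod_cast hb'.2
      exact ⟨h1, h2⟩
    · rintro m ⟨⟨_, ⟨a, ha, rfl⟩, _, ⟨b, hb, rfl⟩, rfl⟩, n, hn, hm⟩
      have h1 := hav a ha b hb n hn (by simpa using hm)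
      simpa using h1
    · rw [Set.ncard_image_of_injective _ Nat.cast_injective, Set.ncard_coe_finset, hcard]
      exact hmain N
  · intro k hk
    obtain ⟨c, hc, hmain⟩ := UpperSqrtLogDeg.result k hk
    refine ⟨c, hc, fun h hdeg hlc hint => ?_⟩
    obtain ⟨C, hbound⟩ := hmain h hdeg hlc (fun q hq => by
      obtain ⟨t, ht⟩ := hint q hq
      exact ⟨t, (Int.modEq_zero_iff_dvd).1 ht⟩)
    refine ⟨C, fun N hN A hA hav => ?_⟩
    refine le_trans ?_ (hbound N hN)
    have hfin : A.Finite := (Set.finite_Icc 1 (N : ℤ)).subset hA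
    -- transport to a finite set of natural numbers
    classical
    set B : Finset ℕ := hfin.toFinset.image Int.toNat with hBd
    have hmem : ∀ a ∈ A, 1 ≤ a ∧ a ≤ (N : ℤ) ∧ ((a.toNat : ℕ) : ℤ) = a := fun a ha =>
      ⟨(hA ha).1, (hA ha).2, Int.toNat_of_nonneg (by have := (hA ha).1; linarith)⟩
    have hBA : B.card = A.ncard := by
      rw [hBd, Finset.card_image_of_injOn, Set.ncard_eq_toFinset_card A hfin]
      intro a ha b hb hab
      have h1 := (hmem a (hfin.mem_toFinset.1 ha)).2.2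
      have h2 := (hmem b (hfin.mem_toFinset.1 hb)).2.2
      rw [← h1, ← h2]
      exact congrArg _ hab
    have hBI : B ⊆ Finset.Icc 1 N := by
      intro b hb
      obtain ⟨a, ha, rfl⟩ := Finset.mem_image.1 hb
      obtain ⟨h1, h2, h3⟩ := hmem a (hfin.mem_toFinset.1 ha)
      rw [Finset.mem_Icc]
      omega
    have hBav : UpperSqrtLogDeg.AvoidsValues h B := by
      intro x hx y hy n hn hxy
      obtain ⟨a, ha, rfl⟩ := Finset.mem_image.1 hx
      obtain ⟨b, hb, rfl⟩ := Finset.mem_image.1 hy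
      have ha' := hfin.mem_toFinset.1 ha
      have hb' := hfin.mem_toFinset.1 hb
      rw [(hmem a ha').2.2, (hmem b hb').2.2] at hxy ⊢
      have := hav ⟨Set.sub_mem_sub ha' hb', n, hn, hxy⟩
      simpa using this
    have hle : B.card ≤ UpperSqrtLogDeg.r h N :=
      le_csSup ⟨N, by rintro j ⟨D, hD, -, rfl⟩; simpa using Finset.card_le_card hD⟩
        ⟨B, hBI, hBav, rfl⟩
    rw [← hBA]
    exact_mod_cast hle

end Vale.Agent.Results.P042.GrowthBounds
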