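import Mathlib
import Vale.Agent.Lib.P042.Assembly

/-!
A new lower bound in the square-difference problem: `r_{x^2}(N) ≫ N^0.756`.
-/

namespace Vale.Agent.Results.P042.SquaresLower

open Polynomial

/-- `A` has no difference which is a nonzero value `h(n)`, `n ≥ 1`, i.e. `(A - A) ∩ h(ℕ₊) ⊆ {0}`. -/
def AvoidsValues (h : ℤ[X]) (A : Finset ℕ) : Prop :=
  ∀ a ∈ A, ∀ b ∈ A, ∀ n : ℕ, 1 ≤ n → (a : ℤ) - (b : ℤ) = h.eval (n : ℤ) → (a : ℤ) - (b : ℤ) = 0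

/-- `r_h(N)`: the largest size of a subset of `{1, …, N}` avoiding the nonzero values of `h`. -/
noncomputable def r (h : ℤ[X]) (N : ℕ) : ℕ :=
  sSup {k : ℕ | ∃ A : Finset ℕ, A ⊆ Finset.Icc 1 N ∧ AvoidsValues h A ∧ A.card = k}

theorem bddAbove_sizes (h : ℤ[X]) (N : ℕ) :
    BddAbove {k : ℕ | ∃ A : Finset ℕ, A ⊆ Finset.Icc 1 N ∧ AvoidsValues h A ∧ A.card = k} := by
  refine ⟨N, ?_⟩
  rintro k ⟨A, hA, -, rfl⟩
  simpa using Finset.card_le_card hA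

theorem card_le_r (h : ℤ[X]) (N : ℕ) (A : Finset ℕ) (hA : A ⊆ Finset.Icc 1 N)
    (hav : AvoidsValues h A) : A.card ≤ r h N :=
  le_csSup (bddAbove_sizes h N) ⟨A, hA, hav, rfl⟩

/-- The supremum in the definition of `r` is attained. -/
theorem exists_card_eq_r (h : ℤ[X]) (N : ℕ) :
    ∃ A : Finset ℕ, A ⊆ Finset.Icc 1 N ∧ AvoidsValues h A ∧ A.card = r h N :=
  Nat.sSup_mem (s := {k : ℕ | ∃ A : Finset ℕ, A ⊆ Finset.Icc 1 N ∧ AvoidsValues h A ∧ A.card = k})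
    ⟨0, ∅, by simp, by intro a ha; simp at ha, by simp⟩ (bddAbove_sizes h N)

theorem result : ∃ c : ℝ, 0 < c ∧ ∀ N : ℕ, c * (N : ℝ) ^ (0.756 : ℝ) ≤ (r (X ^ 2) N : ℝ) := by
  set n : ℕ := 32 ^ 36 * 6 ^ 144 * 21 ^ 91 * 44 ^ 72 * 95 ^ 62 * 217 ^ 51 * 531 ^ 46 * 301 ^ 51 *
    639 ^ 46 * 1133 ^ 42 * 1380 ^ 56 with hn
  have hnpos : 0 < n := by positivity
  refine ⟨(n : ℝ)⁻¹, by positivity, ?_⟩
  intro N
  rcases Nat.eq_zero_or_pos N with rfl | hN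
  · rw [Nat.cast_zero, Real.zero_rpow (by norm_num), mul_zero]
    exact Nat.cast_nonneg _
  · obtain ⟨A, hA, hAs, hAc⟩ := Vale.Agent.P042.exists_large (p := 189) (q := 250) (by positivity)
      (by positivity) hnpos (by norm_num)
      (by
        have h1 : 1 < (16 : ℕ) ^ 36 := Nat.one_lt_pow (by norm_num) (by norm_num)
        have h2 : 0 < (8 ^ 36 * 3 ^ 144 * 7 ^ 91 * 11 ^ 72 * 19 ^ 62 * 31 ^ 51 * 59 ^ 46 * 43 ^ 51 *
          71 ^ 46 * 103 ^ 42 * 115 ^ 56) ^ 2 := by positivity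
        refine lt_of_lt_of_le (lt_of_lt_of_le h1 ?_) (Nat.le_mul_of_pos_right _ h2)
        simp only [Nat.add_assoc]
        exact Nat.le_add_right _ _)
      Vale.Agent.P042.big11 Vale.Agent.P042.bigNumeric N hN
    have h1 : A.card ≤ r (X ^ 2) N := by
      apply card_le_r _ _ _ hA
      intro a ha b hb k _ hab
      rw [eval_pow, eval_X] at hab
      have := hAs a ha b hb k hab
      rw [this, sub_self]
    have h2 : ((189 : ℕ) : ℝ) / ((250 : ℕ) : ℝ) = 0.756 := by norm_num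
    rw [h2] at hAc
    exact hAc.trans (by exact_mod_cast h1)

end Vale.Agent.Results.P042.SquaresLower
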