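import Mathlib
import Vale.Agent.Lib.P042.UB.Final

/-!
`r_h(N) ≤ C N exp(-c √(log N))` for every intersective polynomial `h`.
-/

namespace Vale.Agent.Results.P042.UpperSqrtLog

open Polynomial

/-- `h` is intersective: it has a root modulo every positive integer. -/
def Intersective (h : ℤ[X]) : Prop := ∀ q : ℕ, 1 ≤ q → ∃ t : ℤ, (q : ℤ) ∣ h.eval t

/-- `A` has no difference which is a nonzero value `h(n)`, `n ≥ 1`, i.e. `(A - A) ∩ h(ℕ₊) ⊆ {0}`. -/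
def AvoidsValues (h : ℤ[X]) (A : Finset ℕ) : Prop :=
  ∀ a ∈ A, ∀ b ∈ A, ∀ n : ℕ, 1 ≤ n → (a : ℤ) - (b : ℤ) = h.eval (n : ℤ) → (a : ℤ) - (b : ℤ) = 0

/-- `r_h(N)`: the largest size of a subset of `{1, …, N}` avoiding the nonzero values of `h`. -/
noncomputable def r (h : ℤ[X]) (N : ℕ) : ℕ :=
  sSup {k : ℕ | ∃ A : Finset ℕ, A ⊆ Finset.Icc 1 N ∧ AvoidsValues h A ∧ A.card = k}

/-- The set of sizes is bounded by `N`, and the supremum in the definition of `r` is attained. -/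
theorem exists_card_eq_r (h : ℤ[X]) (N : ℕ) :
    ∃ A : Finset ℕ, A ⊆ Finset.Icc 1 N ∧ AvoidsValues h A ∧ A.card = r h N :=
  Nat.sSup_mem (s := {k : ℕ | ∃ A : Finset ℕ, A ⊆ Finset.Icc 1 N ∧ AvoidsValues h A ∧ A.card = k})
    ⟨0, ∅, by simp, by intro a ha; simp at ha, by simp⟩
    ⟨N, by rintro k ⟨A, hA, -, rfl⟩; simpa using Finset.card_le_card hA⟩

theorem result : ∀ h : ℤ[X], 2 ≤ h.natDegree → 0 < h.leadingCoeff → Intersective h →
    ∃ c C : ℝ, 0 < c ∧ ∀ N : ℕ, 1 ≤ N →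
      (r h N : ℝ) ≤ C * N * Real.exp (-c * Real.sqrt (Real.log N)) := by
  intro h hdeg hlc hint
  obtain ⟨c, C, hc, -, hbound⟩ :=
    Vale.Agent.P042.UB.final_bound h (by omega) hlc hint
  refine ⟨c, C, hc, ?_⟩
  intro N hN
  obtain ⟨A, hA, hav, hcard⟩ := exists_card_eq_r h N
  rw [← hcard]
  exact hbound N A hN hA hav

end Vale.Agent.Results.P042.UpperSqrtLog
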